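import Mathlib
import Vale.Agent.P048C.Final
import Vale.Agent.P048C.Full

/-!
The cycle-complete Ramsey identity in the whole range `m ≥ n ≥ 3`, `(m, n) ≠ (3, 3)`.
-/

theorem Vale.Agent.Results.P048.CycleComplete.result :
    ∀ m n : ℕ, 3 ≤ n → n ≤ m → (m, n) ≠ (3, 3) →
      IsLeast {N : ℕ | ∀ (V : Type) [Fintype V] (G : SimpleGraph V), N ≤ Fintype.card V →
          (∃ (v : V) (p : G.Walk v v), p.IsCycle ∧ p.length = m) ∨
            ∃ s : Finset V, G.IsNIndepSet n s} ((m - 1) * (n - 1) + 1) := by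
  intro m n hn hnm hne
  have hm : 3 + 1 ≤ m := by
    by_contra h
    exact hne (by ext <;> simp <;> omega)
  exact Vale.Agent.P048C.isLeast_of_no_setup
    (fun V _ G d a U hd h => Vale.Agent.P048C.no_setup_all hd h) hn hnm hm
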